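import Vale.Agent.P181.TW.T5.A
import Vale.Agent.P181.TW.T4Ker
import Vale.Agent.P181.DG4a.Pol

set_option autoImplicit false

/-!
# P181, TW (E3), parts b and c: the map `B(G)`, injectivity, and the rank count
-/

open MvPolynomial

namespace Vale.Agent.P181.TW.T5

open Vale.Agent.P181.T4 (HW rowOp rowOp_apply mem_HW)
open Vale.Agent.P181.SZ (TI mem_TI)
open Vale.Agent.P181.SZR3 (colD colD_eq colD_X rowD rowD_eq rowD_colD rowH_colD exists_coeff_colD
  sum_single_col)
open Vale.Agent.P181.DG6.H887 (lsub lsub_X lsub_mem_HW tr_lsub eval_lsub der_comm lsub_deg)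
open Vale.Agent.P181.TW.H312 (opL opL_nil opL_cons opL_perm opL_append opL_zero pol_eq polAll_eq)

variable {m M : ℕ}

/-! ### Operators -/

lemma colD_mem_HW {σ : Type} [Fintype σ] [DecidableEq σ] (a c : σ) {mu : Fin m → ℕ}
    {f : MvPolynomial (Fin m × σ) ℂ} (hf : f ∈ HW m σ mu) : colD a c f ∈ HW m σ mu := by
  rw [mem_HW] at hf ⊢
  refine ⟨rowH_colD hf.1, fun s i h => ?_⟩
  rw [← rowD_eq, rowD_colD, rowD_eq, hf.2 s i h, map_zero]

lemma opL_mem_HW {σ : Type} [Fintype σ] [DecidableEq σ] (c : σ) (l : List σ) {mu : Fin m → ℕ}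
    {f : MvPolynomial (Fin m × σ) ℂ} (hf : f ∈ HW m σ mu) : opL c l f ∈ HW m σ mu := by
  induction l generalizing f with
  | nil => exact hf
  | cons j l ih => exact ih (colD_mem_HW j c hf)

lemma rename_opL {σ : Type} [Fintype σ] [DecidableEq σ] (c : σ) (φ : σ → σ)
    (hφ : ∀ x, φ x = φ c → x = c) (l : List σ) (f : MvPolynomial (Fin m × σ) ℂ) :
    rename (fun p : Fin m × σ => (p.1, φ p.2)) (opL c l f) =
      opL (φ c) (l.map φ) (rename (fun p : Fin m × σ => (p.1, φ p.2)) f) := by
  induction l generalizing f with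
  | nil => rfl
  | cons j l ih =>
    rw [opL_cons, List.map_cons, opL_cons, ih]
    congr 1
    exact DG4a.rn_colD φ j c hφ f

/-- The degree in the column `none` drops by one for each operator. -/
lemma coeff_opL {N : ℕ} (l : List (Fin N)) (f : MvPolynomial (Fin m × Option (Fin N)) ℂ)
    (v : Fin m × Option (Fin N) →₀ ℕ) (h : coeff v (opL none (l.map some) f) ≠ 0) :
    ∃ u, coeff u f ≠ 0 ∧ ∑ i, u (i, none) = ∑ i, v (i, none) + l.length := by
  induction l generalizing f with
  | nil => exact ⟨v, h, by simp⟩
  | cons j l ih =>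
    rw [List.map_cons, opL_cons] at h
    obtain ⟨u, hu, hu2⟩ := ih _ h
    obtain ⟨i, w, rfl, hw⟩ := exists_coeff_colD _ _ f u hu
    refine ⟨_, hw, ?_⟩
    simp only [Finsupp.add_apply, Finset.sum_add_distrib, sum_single_col] at hu2 ⊢
    simp at hu2 ⊢
    omega

/-- The substitution `v ↦ v`, `q_j ↦ ∑ c, A j c q_c`. -/
def exA {s t : ℕ} (A : Fin s → Fin t → ℂ) (o : Option (Fin s)) (o' : Option (Fin t)) : ℂ :=
  match o, o' with
  | none, none => 1
  | none, some _ => 0
  | some _, none => 0
  | some j, some c => A j c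

lemma exA_exA {s t r : ℕ} (A : Fin s → Fin t → ℂ) (B : Fin t → Fin r → ℂ)
    (f : MvPolynomial (Fin m × Option (Fin s)) ℂ) :
    lsub m (exA B) (lsub m (exA A) f) = lsub m (exA fun j c => ∑ k, A j k * B k c) f := by
  rw [lsub_lsub]
  congr 2
  funext o o'
  rw [Fintype.sum_option]
  cases o <;> cases o' <;> simp [exA]

lemma lsub_colD {s t : ℕ} (A : Fin s → Fin t → ℂ) (j : Fin s)
    (f : MvPolynomial (Fin m × Option (Fin s)) ℂ) :
    lsub m (exA A) (colD (some j) none f) =
      ∑ c, C (A j c) * colD (some c) none (lsub m (exA A) f) := by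
  have h := der_comm (lsub m (exA A)) (colD (some j) none)
    (∑ c : Fin t, (C (A j c) : MvPolynomial (Fin m × Option (Fin t)) ℂ) •
      (colD (some c) none : Derivation ℂ (MvPolynomial (Fin m × Option (Fin t)) ℂ) _))
    (fun p => ?_) f
  · rw [← h, SZR3.der_sum]
    rfl
  · obtain ⟨i, o⟩ := p
    rw [SZR3.der_sum, colD_X]
    simp only [Derivation.coe_smul, Pi.smul_apply, smul_eq_mul]
    cases o with
    | none =>
      have h1 : lsub m (exA A) (X (i, (none : Option (Fin s)))) =
          (X (i, none) : MvPolynomial (Fin m × Option (Fin t)) ℂ) := by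
        rw [lsub_X, Fintype.sum_option]
        simp [exA]
      rw [h1, if_pos rfl, lsub_X, Fintype.sum_option]
      simp [exA, colD_X]
    | some k =>
      have h1 : lsub m (exA A) (X (i, some k)) =
          ∑ c, C (A k c) * (X (i, some c) : MvPolynomial (Fin m × Option (Fin t)) ℂ) := by
        rw [lsub_X, Fintype.sum_option]
        simp [exA]
      rw [h1, if_neg (by simp), map_zero]
      refine Finset.sum_eq_zero fun c _ => ?_
      rw [map_sum]
      have h2 : ∀ c', colD (some c) none (C (A k c') *
          (X (i, some c') : MvPolynomial (Fin m × Option (Fin t)) ℂ)) = 0 := by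
        intro c'
        rw [Derivation.leibniz, colD_X, if_neg (by simp)]
        have h3 : (colD (some c) none : Derivation ℂ (MvPolynomial (Fin m × Option (Fin t)) ℂ) _)
            (C (A k c')) = 0 := Derivation.map_algebraMap _ _
        rw [h3, smul_zero, smul_zero, add_zero]
      rw [Finset.sum_eq_zero fun c' _ => h2 c', mul_zero]

/-! ### The map `B` -/

/-- `v ↦ 0`, `q_j ↦ ∑ c, A j c q_c`. -/
def bm {s t : ℕ} (A : Fin s → Fin t → ℂ) (o : Option (Fin s)) (c : Fin t) : ℂ :=
  match o with
  | none => 0
  | some j => A j c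

lemma bm_lsub {s t r : ℕ} (A : Fin s → Fin t → ℂ) (B : Fin t → Fin r → ℂ)
    (f : MvPolynomial (Fin m × Option (Fin s)) ℂ) :
    lsub m B (lsub m (bm A) f) = lsub m (bm fun j c => ∑ k, A j k * B k c) f := by
  rw [lsub_lsub]
  congr 2
  funext o c
  cases o <;> simp [bm]

lemma bm_exA {s t r : ℕ} (A : Fin s → Fin t → ℂ) (B : Fin t → Fin r → ℂ)
    (f : MvPolynomial (Fin m × Option (Fin s)) ℂ) :
    lsub m (bm B) (lsub m (exA A) f) = lsub m (bm fun j c => ∑ k, A j k * B k c) f := by
  rw [lsub_lsub]
  congr 2
  funext o c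
  rw [Fintype.sum_option]
  cases o <;> simp [bm, exA]

/-- The map `B`. -/
noncomputable def BG (m M : ℕ) :
    MvPolynomial (Fin m × Option (Fin (M + 1))) ℂ →ₗ[ℂ] MvPolynomial (Fin m × Fin (M + 1)) ℂ :=
  (lsub m (bm (cen (M + 1)))).toLinearMap ∘ₗ polAll

lemma BG_apply (G : MvPolynomial (Fin m × Option (Fin (M + 1))) ℂ) :
    BG m M G = lsub m (bm (cen (M + 1))) (opL none ((List.finRange (M + 1)).map some) G) := by
  rw [BG, LinearMap.comp_apply, polAll_eq]
  rfl

lemma rename_lsub_bm {n : ℕ} (e : Equiv.Perm (Fin n))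
    (f : MvPolynomial (Fin m × Option (Fin n)) ℂ) :
    rename (fun p : Fin m × Fin n => (p.1, e p.2)) (lsub m (bm (cen n)) f) =
      lsub m (bm (cen n)) (rename (fun p : Fin m × Option (Fin n) => (p.1, p.2.map e)) f) := by
  apply MvPolynomial.funext
  intro x
  rw [eval_rename, eval_lsub, eval_lsub, eval_rename]
  refine eval_congr _ fun p => ?_
  obtain ⟨i, o⟩ := p
  simp only [Function.comp_apply]
  cases o with
  | none => simp [bm]
  | some j =>
    simp only [bm, Option.map_some]
    rw [← Equiv.sum_comp e fun c => cen n (e j) c * x (i, c)]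
    exact Finset.sum_congr rfl fun c _ => by rw [cen_perm]

/-- **(b1)** -/
theorem BG_mem {mu : Fin m → ℕ} {x : ℕ} {G : MvPolynomial (Fin m × Option (Fin (M + 1))) ℂ}
    (hG : G ∈ PX m x (M + 1) mu) : BG m M G ∈ TI (M + 1) (∑ i, mu i) m mu := by
  obtain ⟨h1, h2, h3, h4⟩ := mem_PX.1 hG
  have hHW : BG m M G ∈ HW m (Fin (M + 1)) mu := by
    rw [BG_apply]
    exact lsub_mem_HW _ (opL_mem_HW _ _ h1)
  refine mem_TI.2 ⟨hHW, fun e => ?_, fun v hv j => ?_, fun i => ?_⟩
  · rw [BG_apply, rename_lsub_bm]
    congr 1
    have hr := rename_opL (none : Option (Fin (M + 1))) (Option.map e) (by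
      intro x hx
      simpa using hx) ((List.finRange (M + 1)).map some) G
    rw [h3 e] at hr
    rw [hr]
    symm
    have hl : ((List.finRange (M + 1)).map some).map (Option.map e) =
        ((List.finRange (M + 1)).map e).map some := by
      rw [List.map_map, List.map_map]
      rfl
    rw [hl]
    exact opL_perm ((e.map_finRange_perm.map some).symm) (by simp) G
  · rw [← Finset.sum_congr rfl fun i _ => hHW.1 v hv i, Finset.sum_comm]
    exact Finset.single_le_sum (f := fun j => ∑ i, v (i, j)) (fun _ _ => Nat.zero_le _)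
      (Finset.mem_univ j)
  · rw [BG_apply]
    refine tr_lsub (bm (cen (M + 1))) (id : Fin (M + 1) → Fin (M + 1)) (fun o => ?_) i _
    cases o with
    | none => simp [bm]
    | some j => exact sum_cen (by omega) j

/-- **(b2)** -/
theorem BG_zero (hM : 1 ≤ M) (G : MvPolynomial (Fin m × Option (Fin (M + 1))) ℂ) :
    lsub m (RR M) (BG m M G) = 0 := by
  rw [BG_apply, bm_lsub, List.finRange_succ_last, List.map_append, opL_append, List.map_cons,
    List.map_nil, opL_cons, opL_nil, colD_eq, map_sum]
  refine Finset.sum_eq_zero fun i _ => ?_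
  rw [map_mul, lsub_X]
  have h : ∑ c, C (bm (fun j c => ∑ k, cen (M + 1) j k * RR M k c)
      ((i, some (Fin.last M)) : Fin m × Option (Fin (M + 1))).2 c) *
      (X (((i, some (Fin.last M)) : Fin m × Option (Fin (M + 1))).1, c) :
        MvPolynomial (Fin m × Fin M) ℂ) = 0 := by
    refine Finset.sum_eq_zero fun c _ => ?_
    have h1 : bm (fun j c => ∑ k, cen (M + 1) j k * RR M k c)
        ((i, some (Fin.last M)) : Fin m × Option (Fin (M + 1))).2 c = 0 := by
      change ∑ k, cen (M + 1) (Fin.last M) k * RR M k c = 0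
      rw [sum_cen_mul (Fin.last M) fun k => RR M k c, sum_RR hM, RR_last, Pi.zero_apply, mul_zero,
        sub_zero]
    rw [h1, C_0, zero_mul]
  rw [h, zero_mul]

/-- `Y_j = q_j`, `Y_last = - ∑ q`. -/
noncomputable def EE (M : ℕ) : Fin (M + 1) → Fin M → ℂ :=
  Fin.snoc (α := fun _ => Fin M → ℂ) (fun j c => if j = c then 1 else 0) (fun _ => -1)

lemma EE_castSucc (j : Fin M) : EE M j.castSucc = fun c => if j = c then 1 else 0 := by
  rw [EE, Fin.snoc_castSucc]

lemma EE_last : EE M (Fin.last M) = fun _ => -1 := by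
  rw [EE, Fin.snoc_last]

lemma sum_EE (c : Fin M) : ∑ j, EE M j c = 0 := by
  rw [Fin.sum_univ_castSucc, EE_last]
  simp only [EE_castSucc, Finset.sum_ite_eq', Finset.mem_univ, if_true]
  ring

lemma lsub_opL (l : List (Fin M)) (f : MvPolynomial (Fin m × Option (Fin (M + 1))) ℂ) :
    lsub m (exA (EE M)) (opL none ((l.map Fin.castSucc).map some) f) =
      opL none (l.map some) (lsub m (exA (EE M)) f) := by
  induction l generalizing f with
  | nil => rfl
  | cons j l ih =>
    rw [List.map_cons, List.map_cons, opL_cons, ih, List.map_cons, opL_cons, lsub_colD]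
    congr 1
    rw [EE_castSucc, Finset.sum_eq_single j]
    · beta_reduce
      rw [if_pos rfl, C_1, one_mul]
    · intro c _ hc
      beta_reduce
      rw [if_neg (Ne.symm hc), C_0, zero_mul]
    · intro h'
      exact absurd (Finset.mem_univ _) h'

/-- A polynomial without the column `none`. -/
lemma eq_zero_of_bm {n : ℕ} {H : MvPolynomial (Fin m × Option (Fin n)) ℂ}
    (hH : ∀ v, coeff v H ≠ 0 → ∑ i, v (i, none) = 0)
    (h : lsub m (bm fun j c : Fin n => if j = c then 1 else 0) H = 0) : H = 0 := by
  classical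
  have h1 : lsub m (fun (c : Fin n) (o : Option (Fin n)) => if o = some c then (1 : ℂ) else 0)
      (lsub m (bm fun j c : Fin n => if j = c then 1 else 0) H) = H := by
    rw [lsub_lsub]
    have h2 : lsub m (fun (o o' : Option (Fin n)) => ∑ k,
        (bm fun j c : Fin n => if j = c then (1 : ℂ) else 0) o k *
          (if o' = some k then (1 : ℂ) else 0)) =
        aeval (fun p : Fin m × Option (Fin n) => if p.2 = none then
          (0 : MvPolynomial (Fin m × Option (Fin n)) ℂ) else X p) := by
      apply MvPolynomial.algHom_ext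
      rintro ⟨i, o⟩
      rw [lsub_X, aeval_X]
      cases o with
      | none => simp [bm]
      | some j =>
        rw [if_neg (by simp), Finset.sum_eq_single (some j)]
        · simp [bm]
        · intro o' _ ho'
          have h3 : ∑ k, (bm fun j c : Fin n => if j = c then (1 : ℂ) else 0) (some j) k *
              (if o' = some k then (1 : ℂ) else 0) = 0 := by
            refine Finset.sum_eq_zero fun k _ => ?_
            by_cases hk : j = k
            · subst hk
              rw [if_neg ho', mul_zero]
            · simp [bm, hk]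
          rw [h3, C_0, zero_mul]
        · intro h'
          exact absurd (Finset.mem_univ _) h'
    rw [h2]
    apply MvPolynomial.ext
    intro v
    rw [coeff_kill' (fun p : Fin m × Option (Fin n) => p.2 = none)]
    split_ifs with h3
    · rfl
    · by_contra h4
      apply h3
      rintro ⟨i, o⟩ ho
      have ho' : o = none := ho
      subst ho'
      have h5 := hH v (Ne.symm h4)
      exact (Finset.sum_eq_zero_iff.1 h5) i (Finset.mem_univ _)
  rw [← h1, h, map_zero]

/-- The section of `EE` on centred points. -/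
lemma lsub_exA_cen {n : ℕ} (G : MvPolynomial (Fin m × Option (Fin n)) ℂ)
    (h : ∀ i, ∑ j : Fin n, pderiv (i, some j) G = 0) : lsub m (exA (cen n)) G = G := by
  apply MvPolynomial.funext
  intro x
  rw [eval_lsub, ← eval_tr (fun o : Option (Fin n) => o.elim 0 fun _ => 1) G (fun i => by
    rw [Fintype.sum_option]
    simpa using h i) x (fun i => - ((n : ℂ)⁻¹ * ∑ c, x (i, some c)))]
  refine eval_congr _ fun p => ?_
  obtain ⟨i, o⟩ := p
  rw [Fintype.sum_option]
  cases o with
  | none => simp [exA]
  | some j =>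
    simp only [exA, zero_mul, zero_add, Option.elim_some]
    rw [sum_cen_mul j fun c => x (i, some c)]
    ring

/-- **(b3)** -/
theorem BG_ker (hK : KerM) (hM : 1 ≤ M) {mu : Fin m → ℕ} (hmu : ∑ i, mu i ≤ 2 * M)
    {G : MvPolynomial (Fin m × Option (Fin (M + 1))) ℂ} (hG : G ∈ PX m (M + 1) (M + 1) mu)
    (h0 : BG m M G = 0) : G = 0 := by
  classical
  obtain ⟨h1, h2, h3, h4⟩ := mem_PX.1 hG
  set g := lsub m (exA (EE M)) G with hg
  -- the polarized polynomial vanishes
  set H := lsub m (exA (EE M)) (opL none ((List.finRange (M + 1)).map some) G) with hH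
  have hH0 : H = 0 := by
    apply eq_zero_of_bm
    · intro v hv
      have h5 := lsub_deg (m := m) (exA (EE M)) (fun o => o = none) (fun o => o = none) (by
        intro j c hjc
        cases j <;> cases c <;> simp [exA] at hjc ⊢) (n := 0)
        (f := opL none ((List.finRange (M + 1)).map some) G) (by
          intro v hv
          obtain ⟨u, hu, hu2⟩ := coeff_opL _ _ v hv
          rw [h2 u hu, List.length_finRange] at hu2
          simp
          have h6 : ∑ i, v (i, (none : Option (Fin (M + 1)))) = 0 := by omega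
          intro i
          exact (Finset.sum_eq_zero_iff.1 h6) i (Finset.mem_univ _)) v hv
      simpa using h5
    · rw [hH, bm_exA]
      have h5 := congrArg (lsub m (EE M)) h0
      rw [map_zero, BG_apply, bm_lsub] at h5
      rw [← h5]
      congr 3
      funext j c
      rw [sum_cen_mul j fun k => EE M k c, sum_EE, mul_zero, sub_zero]
      simp
  -- rewrite it
  have hH1 : H = - opL none ((List.finRange M).map some)
      (∑ j : Fin M, colD (some j) none g) := by
    have hp : (((List.finRange (M + 1)).map some)).Perm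
        (some (Fin.last M) :: ((List.finRange M).map Fin.castSucc).map some) := by
      rw [List.finRange_succ_last, List.map_append]
      exact List.perm_append_comm
    rw [hH, opL_perm hp (by simp), opL_cons, lsub_opL, lsub_colD, ← hg]
    have h5 : ∑ c, C (EE M (Fin.last M) c) * colD (some c) none g =
        - ∑ j : Fin M, colD (some j) none g := by
      rw [EE_last, ← Finset.sum_neg_distrib]
      refine Finset.sum_congr rfl fun c _ => ?_
      rw [C_neg, C_1]
      ring
    rw [h5, ← polAll_eq, ← polAll_eq, map_neg]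
  have hg0 : g = 0 := by
    refine hK m M g hM ?_ ?_
    · intro v hv
      have h5 := lsub_deg (m := m) (exA (EE M)) (fun o => o = none) (fun o => o = none) (by
        intro j c hjc
        cases j <;> cases c <;> simp [exA] at hjc ⊢) (n := M + 1) (f := G) (by
          intro v hv
          rw [Finset.sum_ite_eq' Finset.univ (none : Option (Fin (M + 1))),
            if_pos (Finset.mem_univ _)]
          exact h2 v hv) v hv
      rw [Finset.sum_ite_eq' Finset.univ (none : Option (Fin M)),
            if_pos (Finset.mem_univ _)] at h5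
      have h6 : g ∈ HW m (Option (Fin M)) mu := lsub_mem_HW _ h1
      have h7 : ∑ i, ∑ o, v (i, o) = ∑ i, mu i :=
        Finset.sum_congr rfl fun i _ => h6.1 v hv i
      rw [Finset.sum_comm, Fintype.sum_option] at h7
      refine ⟨h5, ?_⟩
      omega
    · rw [polAll_eq]
      simp only [pol_eq]
      rw [← neg_eq_zero, ← hH1, hH0]
  -- back to `G`
  have h5 : lsub m (exA fun (j : Fin M) (c : Fin (M + 1)) => cen (M + 1) j.castSucc c) g = G := by
    rw [hg, exA_exA]
    conv_rhs => rw [← lsub_exA_cen G h4]
    congr 3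
    funext j c
    induction j using Fin.lastCases with
    | last =>
      rw [EE_last]
      have h6 := sum_cen' (n := M + 1) (by omega) c
      rw [Fin.sum_univ_castSucc] at h6
      simp only [neg_mul, one_mul, Finset.sum_neg_distrib]
      linear_combination -h6
    | cast j =>
      rw [EE_castSucc]
      simp
  rw [← h5, hg0, map_zero]

/-- **(E3)** from the kernel lemma. -/
theorem e3_of (hK : KerM) : E3 := by
  intro M m mu hM hmu
  let R : TI (M + 1) (∑ i, mu i) m mu →ₗ[ℂ] MvPolynomial (Fin m × Fin M) ℂ :=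
    (lsub m (RR M)).toLinearMap ∘ₗ (TI (M + 1) (∑ i, mu i) m mu).subtype
  have h1 := LinearMap.finrank_range_add_finrank_ker R
  have h2 : Module.finrank ℂ (TI M (∑ i, mu i) m mu) ≤ Module.finrank ℂ (LinearMap.range R) := by
    apply Submodule.finrank_mono
    intro f hf
    obtain ⟨F, hF, hF2⟩ := exists_section hM hf
    exact ⟨⟨F, hF⟩, hF2⟩
  have h3 : NX m (M + 1) (M + 1) mu ≤ Module.finrank ℂ (LinearMap.ker R) := by
    let L : PX m (M + 1) (M + 1) mu →ₗ[ℂ] LinearMap.ker R :=
      LinearMap.codRestrict (LinearMap.ker R)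
        ((BG m M).restrict (q := TI (M + 1) (∑ i, mu i) m mu) fun G hG => BG_mem hG) (by
          intro G
          rw [LinearMap.mem_ker]
          exact BG_zero hM G.1)
    refine LinearMap.finrank_le_finrank_of_injective (f := L) ?_
    refine (injective_iff_map_eq_zero L).2 fun G hG => ?_
    apply Subtype.ext
    refine BG_ker hK hM hmu G.2 ?_
    exact congrArg (fun x => (x.1.1 : MvPolynomial (Fin m × Fin (M + 1)) ℂ)) hG
  omega

/-- **(E3)** -/
theorem e3 : E3 := e3_of H312.kerM_holds

end Vale.Agent.P181.TW.T5
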