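import Vale.Agent.P181.TW.Defs
import Vale.Agent.P181.DG6.H887.Sub
import Vale.Agent.P181.SZT0.Tr

set_option autoImplicit false

/-!
# P181, TW (E3), part a: the section `A(f)`
-/

open MvPolynomial

namespace Vale.Agent.P181.TW.T5

open Vale.Agent.P181.T4 (HW rowOp rowOp_apply mem_HW)
open Vale.Agent.P181.SZ (TI mem_TI)
open Vale.Agent.P181.SZT0 (rc inj_pr rc_mem_HW perm_restrict)
open Vale.Agent.P181.DG6.H887 (lsub lsub_X lsub_mem_HW tr_lsub eval_lsub der_comm)

/-! ### Translations -/

lemma derivative_aeval {I : Type} [Fintype I] (y : I → Polynomial ℂ)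
    (f : MvPolynomial I ℂ) : Polynomial.derivative (aeval y f) =
      ∑ p, aeval y (pderiv p f) * Polynomial.derivative (y p) := by
  classical
  induction f using MvPolynomial.induction_on with
  | C a =>
    have h1 : (aeval y (C a : MvPolynomial I ℂ)) = Polynomial.C a := aeval_C _ _
    rw [h1, Polynomial.derivative_C]
    symm
    refine Finset.sum_eq_zero fun p _ => ?_
    rw [pderiv_C, map_zero, zero_mul]
  | add f g hf hg =>
    simp only [map_add, hf, hg, add_mul, Finset.sum_add_distrib]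
  | mul_X f q hf =>
    have h1 : ∀ p, aeval y (pderiv p (f * X q)) * Polynomial.derivative (y p) =
        aeval y f * (if q = p then Polynomial.derivative (y p) else 0) +
          y q * (aeval y (pderiv p f) * Polynomial.derivative (y p)) := by
      intro p
      rw [Derivation.leibniz, smul_eq_mul, smul_eq_mul, map_add, map_mul, map_mul, aeval_X]
      by_cases h : q = p
      · subst h
        rw [pderiv_X_self, if_pos rfl, map_one]
        ring
      · rw [pderiv_X_of_ne h, if_neg h, map_zero]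
        ring
    rw [map_mul, aeval_X, Polynomial.derivative_mul, hf, Finset.sum_congr rfl fun p _ => h1 p,
      Finset.sum_add_distrib, ← Finset.mul_sum, ← Finset.mul_sum, Finset.sum_ite_eq,
      if_pos (Finset.mem_univ q)]
    ring

lemma eval_congr {I : Type} {x y : I → ℂ} (f : MvPolynomial I ℂ) (h : ∀ p, x p = y p) :
    eval x f = eval y f := by
  rw [funext h]

variable {m : ℕ}

lemma eval_tr {κ : Type} [Fintype κ] (e : κ → ℂ) (f : MvPolynomial (Fin m × κ) ℂ)
    (h : ∀ i, ∑ k, C (e k) * pderiv (i, k) f = 0) (x : Fin m × κ → ℂ) (u : Fin m → ℂ) :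
    eval (fun p => x p + e p.2 * u p.1) f = eval x f := by
  classical
  let y : Fin m × κ → Polynomial ℂ :=
    fun p => Polynomial.C (x p) + Polynomial.C (e p.2 * u p.1) * Polynomial.X
  have h1 : Polynomial.derivative (aeval y f) = 0 := by
    rw [derivative_aeval, Fintype.sum_prod_type]
    refine Finset.sum_eq_zero fun i _ => ?_
    have h2 : ∀ k, aeval y (pderiv (i, k) f) * Polynomial.derivative (y (i, k)) =
        Polynomial.C (u i) * aeval y (C (e k) * pderiv (i, k) f) := by
      intro k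
      have h3 : Polynomial.derivative (y (i, k)) = Polynomial.C (e k * u i) := by
        change Polynomial.derivative (Polynomial.C (x (i, k)) +
          Polynomial.C (e k * u i) * Polynomial.X) = _
        simp
      have h4 : aeval y (C (e k) : MvPolynomial (Fin m × κ) ℂ) = Polynomial.C (e k) :=
        aeval_C _ _
      rw [h3, map_mul (aeval y), h4, Polynomial.C_mul]
      ring
    rw [Finset.sum_congr rfl fun k _ => h2 k, ← Finset.mul_sum, ← map_sum, h i, map_zero,
      mul_zero]
  have h3 : ∀ r : ℂ, Polynomial.eval r (aeval y f) =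
      eval (fun p => Polynomial.eval r (y p)) f := by
    intro r
    have h4 : ((Polynomial.aeval r : Polynomial ℂ →ₐ[ℂ] ℂ).comp (aeval y)) =
        aeval (fun p => Polynomial.eval r (y p)) := by
      apply MvPolynomial.algHom_ext
      intro p
      rw [AlgHom.comp_apply, aeval_X, aeval_X, Polynomial.coe_aeval_eq_eval]
    have h5 := congrArg (fun φ => φ f) h4
    simp only [AlgHom.comp_apply, Polynomial.coe_aeval_eq_eval] at h5
    rw [h5]
    rfl
  obtain ⟨c, hc⟩ := Polynomial.natDegree_eq_zero.1 (Polynomial.derivative_eq_zero.1 h1)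
  have h6 := h3 0
  have h7 := h3 1
  rw [← hc, Polynomial.eval_C] at h6 h7
  have h8 : (fun p => Polynomial.eval 0 (y p)) = x := by
    funext p
    change Polynomial.eval 0 (Polynomial.C (x p) + Polynomial.C (e p.2 * u p.1) * Polynomial.X) = _
    simp
  have h9 : (fun p => Polynomial.eval 1 (y p)) = fun p => x p + e p.2 * u p.1 := by
    funext p
    change Polynomial.eval 1 (Polynomial.C (x p) + Polynomial.C (e p.2 * u p.1) * Polynomial.X) = _
    simp
  rw [h8] at h6
  rw [h9] at h7
  rw [← h6, ← h7]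

/-! ### Linear substitutions -/

lemma lsub_lsub {σ τ ρ : Type} [Fintype τ] [Fintype ρ] (A : σ → τ → ℂ) (B : τ → ρ → ℂ)
    (f : MvPolynomial (Fin m × σ) ℂ) :
    lsub m B (lsub m A f) = lsub m (fun j c => ∑ k, A j k * B k c) f := by
  apply MvPolynomial.funext
  intro x
  rw [eval_lsub, eval_lsub, eval_lsub]
  refine eval_congr _ fun p => ?_
  simp only [Finset.mul_sum, Finset.sum_mul]
  rw [Finset.sum_comm]
  exact Finset.sum_congr rfl fun c _ => Finset.sum_congr rfl fun k _ => by ring

/-- The centring matrix. -/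
noncomputable def cen (n : ℕ) (j c : Fin n) : ℂ := (if j = c then 1 else 0) - (n : ℂ)⁻¹

lemma sum_cen {n : ℕ} (hn : 1 ≤ n) (j : Fin n) : ∑ c, cen n j c = 0 := by
  have h : (n : ℂ) ≠ 0 := by
    rw [Nat.cast_ne_zero]
    omega
  simp only [cen, Finset.sum_sub_distrib, Finset.sum_ite_eq, Finset.mem_univ, if_true,
    Finset.sum_const, Finset.card_univ, Fintype.card_fin, nsmul_eq_mul]
  rw [mul_inv_cancel₀ h, sub_self]

lemma cen_comm {n : ℕ} (j c : Fin n) : cen n j c = cen n c j := by
  simp only [cen, eq_comm]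

lemma sum_cen' {n : ℕ} (hn : 1 ≤ n) (c : Fin n) : ∑ j, cen n j c = 0 := by
  rw [Finset.sum_congr rfl fun j _ => cen_comm j c]
  exact sum_cen hn c

lemma sum_cen_mul {n : ℕ} (j : Fin n) (r : Fin n → ℂ) :
    ∑ c, cen n j c * r c = r j - (n : ℂ)⁻¹ * ∑ c, r c := by
  simp only [cen, sub_mul, Finset.sum_sub_distrib, ite_mul, one_mul, zero_mul, Finset.sum_ite_eq,
    Finset.mem_univ, if_true]
  rw [Finset.mul_sum]

lemma cen_perm {n : ℕ} (e : Equiv.Perm (Fin n)) (j c : Fin n) : cen n (e j) (e c) = cen n j c := by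
  simp only [cen, EmbeddingLike.apply_eq_iff_eq]

/-- Centring does not change a translation invariant polynomial. -/
lemma lsub_cen {n : ℕ} (f : MvPolynomial (Fin m × Fin n) ℂ)
    (h : ∀ i, ∑ j, pderiv (i, j) f = 0) : lsub m (cen n) f = f := by
  apply MvPolynomial.funext
  intro x
  rw [eval_lsub, ← eval_tr (fun _ => 1) f (fun i => by simpa using h i) x
    (fun i => - ((n : ℂ)⁻¹ * ∑ c, x (i, c)))]
  refine eval_congr _ fun p => ?_
  rw [sum_cen_mul p.2 fun c => x (p.1, c)]
  ring

lemma rename_lsub_cen {n : ℕ} (e : Equiv.Perm (Fin n)) (f : MvPolynomial (Fin m × Fin n) ℂ) :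
    rename (fun p : Fin m × Fin n => (p.1, e p.2)) (lsub m (cen n) f) =
      lsub m (cen n) (rename (fun p : Fin m × Fin n => (p.1, e p.2)) f) := by
  apply MvPolynomial.funext
  intro x
  rw [eval_rename, eval_lsub, eval_lsub, eval_rename]
  refine eval_congr _ fun p => ?_
  simp only [Function.comp_apply]
  rw [← Equiv.sum_comp e fun c => cen n (e p.2) c * x (p.1, c)]
  exact Finset.sum_congr rfl fun c _ => by rw [cen_perm]

/-! ### Columns set to zero -/

lemma coeff_kill' {I : Type} (P : I → Prop) [DecidablePred P] (f : MvPolynomial I ℂ)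
    (E : I →₀ ℕ) :
    coeff E (aeval (fun k => if P k then (0 : MvPolynomial I ℂ) else X k) f) =
      open scoped Classical in if ∀ k, P k → E k = 0 then coeff E f else 0 := by
  classical
  induction f using MvPolynomial.induction_on' with
  | monomial v c =>
    have key : aeval (fun k => if P k then (0 : MvPolynomial I ℂ) else X k) (monomial v c) =
        if ∀ k, P k → v k = 0 then monomial v c else 0 := by
      rw [aeval_monomial]
      by_cases h : ∀ k, P k → v k = 0
      · have h1 : (v.prod fun k n => (if P k then (0 : MvPolynomial I ℂ) else X k) ^ n) =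
            v.prod fun k n => X k ^ n := by
          refine Finset.prod_congr rfl fun k hk => ?_
          beta_reduce
          rw [if_neg fun hP => Finsupp.mem_support_iff.1 hk (h k hP)]
        rw [h1, if_pos h]
        exact monomial_eq.symm
      · rw [if_neg h]
        push Not at h
        obtain ⟨k, hk, hk0⟩ := h
        have h1 : (v.prod fun k n => (if P k then (0 : MvPolynomial I ℂ) else X k) ^ n) = 0 := by
          refine Finset.prod_eq_zero (Finsupp.mem_support_iff.2 hk0) ?_
          beta_reduce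
          rw [if_pos hk, zero_pow hk0]
        rw [h1, mul_zero]
    rw [key]
    by_cases hv : v = E
    · subst hv
      split_ifs <;> simp
    · have h2 : coeff E (monomial v c) = 0 := by rw [coeff_monomial, if_neg hv]
      rw [h2]
      split_ifs <;> simp [h2]
  | add f g hf hg =>
    rw [map_add, coeff_add, hf, hg, coeff_add]
    split_ifs <;> simp

variable {M : ℕ}

/-- The column `j` is set to zero. -/
noncomputable def kz (m : ℕ) {M : ℕ} (j : Fin M) :
    MvPolynomial (Fin m × Fin M) ℂ →ₐ[ℂ] MvPolynomial (Fin m × Fin M) ℂ :=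
  lsub m (fun k c => if k = c ∧ k ≠ j then 1 else 0)

lemma kz_eq (j : Fin M) : kz m j =
    aeval (fun p : Fin m × Fin M => if p.2 = j then (0 : MvPolynomial (Fin m × Fin M) ℂ)
      else X p) := by
  apply MvPolynomial.algHom_ext
  intro p
  rw [kz, lsub_X, aeval_X]
  by_cases h : p.2 = j
  · simp [h]
  · rw [if_neg h, Finset.sum_eq_single p.2]
    · simp [h]
    · intro c _ hc
      rw [if_neg fun h' => hc h'.1.symm, C_0, zero_mul]
    · intro h'
      exact absurd (Finset.mem_univ _) h'

lemma coeff_kz (j : Fin M) (f : MvPolynomial (Fin m × Fin M) ℂ) (v : Fin m × Fin M →₀ ℕ) :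
    coeff v (kz m j f) = open scoped Classical in if ∀ i, v (i, j) = 0 then coeff v f else 0 := by
  classical
  rw [kz_eq, coeff_kill' (fun p : Fin m × Fin M => p.2 = j)]
  have h : (∀ p : Fin m × Fin M, p.2 = j → v p = 0) ↔ ∀ i, v (i, j) = 0 := by
    constructor
    · intro h i
      exact h (i, j) rfl
    · rintro h ⟨i, k⟩ hk
      have hk' : k = j := hk
      rw [hk']
      exact h i
  simp only [h]

lemma rename_kz (e : Equiv.Perm (Fin M)) (j : Fin M) (f : MvPolynomial (Fin m × Fin M) ℂ) :
    rename (fun p : Fin m × Fin M => (p.1, e p.2)) (kz m j f) =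
      kz m (e j) (rename (fun p : Fin m × Fin M => (p.1, e p.2)) f) := by
  apply MvPolynomial.funext
  intro x
  rw [eval_rename, kz, kz, eval_lsub, eval_lsub, eval_rename]
  refine eval_congr _ fun p => ?_
  simp only [Function.comp_apply]
  rw [← Equiv.sum_comp e fun c => (if e p.2 = c ∧ e p.2 ≠ e j then (1 : ℂ) else 0) * x (p.1, c)]
  exact Finset.sum_congr rfl fun c _ => by
    simp only [EmbeddingLike.apply_eq_iff_eq, ne_eq]

/-- `h` plus the sum of `h` with one column set to zero. -/
noncomputable def LAM (m M : ℕ) :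
    MvPolynomial (Fin m × Fin M) ℂ →ₗ[ℂ] MvPolynomial (Fin m × Fin M) ℂ :=
  LinearMap.id + ∑ j : Fin M, (kz m j).toLinearMap

lemma LAM_apply (f : MvPolynomial (Fin m × Fin M) ℂ) : LAM m M f = f + ∑ j, kz m j f := by
  rw [LAM, LinearMap.add_apply, LinearMap.sum_apply]
  rfl

lemma coeff_LAM (f : MvPolynomial (Fin m × Fin M) ℂ) (v : Fin m × Fin M →₀ ℕ) :
    ∃ n : ℕ, coeff v (LAM m M f) = ((n : ℂ) + 1) * coeff v f := by
  classical
  refine ⟨(Finset.univ.filter fun j : Fin M => ∀ i, v (i, j) = 0).card, ?_⟩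
  rw [LAM_apply, coeff_add, coeff_sum, Finset.sum_congr rfl fun j _ => coeff_kz j f v,
    ← Finset.sum_filter, Finset.sum_const, nsmul_eq_mul]
  ring

lemma LAM_inj {f : MvPolynomial (Fin m × Fin M) ℂ} (h : LAM m M f = 0) : f = 0 := by
  apply MvPolynomial.ext
  intro v
  obtain ⟨n, hn⟩ := coeff_LAM f v
  rw [h, coeff_zero] at hn
  have h1 : ((n : ℂ) + 1) ≠ 0 := by exact_mod_cast Nat.succ_ne_zero n
  rw [coeff_zero]
  rcases mul_eq_zero.1 hn.symm with h2 | h2
  · exact absurd h2 h1
  · exact h2

/-- The symmetric highest weight polynomials. -/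
noncomputable def Sy (m M : ℕ) (mu : Fin m → ℕ) :
    Submodule ℂ (MvPolynomial (Fin m × Fin M) ℂ) where
  carrier := {f | f ∈ HW m (Fin M) mu ∧
    ∀ e : Equiv.Perm (Fin M), rename (fun p : Fin m × Fin M => (p.1, e p.2)) f = f}
  zero_mem' := ⟨zero_mem _, fun _ => map_zero _⟩
  add_mem' := by
    rintro f g ⟨hf1, hf2⟩ ⟨hg1, hg2⟩
    exact ⟨add_mem hf1 hg1, fun e => by rw [map_add, hf2 e, hg2 e]⟩
  smul_mem' := by
    rintro c f ⟨hf1, hf2⟩
    exact ⟨Submodule.smul_mem _ c hf1, fun e => by rw [map_smul, hf2 e]⟩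

lemma mem_Sy {mu : Fin m → ℕ} {f : MvPolynomial (Fin m × Fin M) ℂ} :
    f ∈ Sy m M mu ↔ f ∈ HW m (Fin M) mu ∧
      ∀ e : Equiv.Perm (Fin M), rename (fun p : Fin m × Fin M => (p.1, e p.2)) f = f := Iff.rfl

instance finiteDimensional_Sy (m M : ℕ) (mu : Fin m → ℕ) : FiniteDimensional ℂ (Sy m M mu) :=
  Submodule.finiteDimensional_of_le (S₂ := HW m (Fin M) mu) fun _ h => h.1

lemma LAM_mem {mu : Fin m → ℕ} {f : MvPolynomial (Fin m × Fin M) ℂ} (hf : f ∈ Sy m M mu) :
    LAM m M f ∈ Sy m M mu := by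
  rw [mem_Sy] at hf ⊢
  rw [LAM_apply]
  refine ⟨add_mem hf.1 (Submodule.sum_mem _ fun j _ => lsub_mem_HW _ hf.1), fun e => ?_⟩
  rw [map_add, hf.2 e, map_sum]
  congr 1
  rw [Finset.sum_congr rfl fun j _ => rename_kz e j f, Finset.sum_congr rfl fun j _ => by
    rw [hf.2 e]]
  exact Equiv.sum_comp e fun j => kz m j f

lemma exists_LAM {mu : Fin m → ℕ} {f : MvPolynomial (Fin m × Fin M) ℂ} (hf : f ∈ Sy m M mu) :
    ∃ h ∈ Sy m M mu, LAM m M h = f := by
  let L : Sy m M mu →ₗ[ℂ] Sy m M mu := (LAM m M).restrict fun f hf => LAM_mem hf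
  have hL : Function.Injective L := by
    rw [← LinearMap.ker_eq_bot, LinearMap.ker_eq_bot']
    intro g hg
    apply Subtype.ext
    exact LAM_inj (congrArg Subtype.val hg)
  obtain ⟨h, hh⟩ := (LinearMap.injective_iff_surjective.1 hL) ⟨f, hf⟩
  exact ⟨h.1, h.2, congrArg Subtype.val hh⟩

/-! ### One more column -/

/-- The columns other than `k`. -/
def ins {M : ℕ} (k : Fin (M + 1)) (c : Fin M) : Fin (M + 1) :=
  Equiv.swap k (Fin.last M) c.castSucc

lemma ins_inj (k : Fin (M + 1)) : Function.Injective (ins k) := fun _ _ h =>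
  Fin.castSucc_injective M ((Equiv.swap k (Fin.last M)).injective h)

/-- The sum over the columns left out. -/
noncomputable def up (h : MvPolynomial (Fin m × Fin M) ℂ) :
    MvPolynomial (Fin m × Fin (M + 1)) ℂ := ∑ k : Fin (M + 1), rc m (ins k) h

lemma up_mem_HW {mu : Fin m → ℕ} {h : MvPolynomial (Fin m × Fin M) ℂ}
    (hh : h ∈ HW m (Fin M) mu) : up h ∈ HW m (Fin (M + 1)) mu :=
  Submodule.sum_mem _ fun k _ => (rc_mem_HW (ins_inj k)).2 hh

lemma ins_perm (e : Equiv.Perm (Fin (M + 1))) (k : Fin (M + 1)) :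
    ∃ π : Equiv.Perm (Fin M), ∀ c, e (ins k c) = ins (e k) (π c) := by
  let ρ : Equiv.Perm (Fin (M + 1)) :=
    Equiv.swap (e k) (Fin.last M) * e * Equiv.swap k (Fin.last M)
  have hl : ρ (Fin.last M) = Fin.last M := by
    change Equiv.swap (e k) (Fin.last M) (e (Equiv.swap k (Fin.last M) (Fin.last M))) = _
    rw [Equiv.swap_apply_right, Equiv.swap_apply_left]
  have hr : ∀ x : Fin (M + 1), x ∈ Set.range (Fin.castSucc : Fin M → Fin (M + 1)) ↔
      x ≠ Fin.last M := fun x => Fin.exists_castSucc_eq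
  obtain ⟨π, hπ⟩ := perm_restrict (Fin.castSucc_injective M) ρ (by
    intro x
    rw [hr, hr, not_iff_not]
    constructor
    · intro h
      rw [← hl] at h
      exact ρ.injective h
    · intro h
      rw [h, hl])
  refine ⟨π, fun c => ?_⟩
  change e (Equiv.swap k (Fin.last M) c.castSucc) = Equiv.swap (e k) (Fin.last M) (π c).castSucc
  rw [hπ c]
  change _ = Equiv.swap (e k) (Fin.last M) (Equiv.swap (e k) (Fin.last M)
    (e (Equiv.swap k (Fin.last M) c.castSucc)))
  rw [Equiv.swap_apply_self]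

lemma up_sym {h : MvPolynomial (Fin m × Fin M) ℂ}
    (hh : ∀ e : Equiv.Perm (Fin M), rename (fun p : Fin m × Fin M => (p.1, e p.2)) h = h)
    (e : Equiv.Perm (Fin (M + 1))) :
    rename (fun p : Fin m × Fin (M + 1) => (p.1, e p.2)) (up h) = up h := by
  rw [up, map_sum]
  have h1 : ∀ k, rename (fun p : Fin m × Fin (M + 1) => (p.1, e p.2)) (rc m (ins k) h) =
      rc m (ins (e k)) h := by
    intro k
    obtain ⟨π, hπ⟩ := ins_perm e k
    conv_rhs => rw [← hh π]
    rw [rc, rc, rename_rename, rename_rename]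
    congr 2
    funext p
    simp only [Function.comp_apply, hπ]
  rw [Finset.sum_congr rfl fun k _ => h1 k]
  exact Equiv.sum_comp e fun k => rc m (ins k) h

/-- The last column is set to zero. -/
def Z0 (M : ℕ) (j : Fin (M + 1)) (c : Fin M) : ℂ := if j = c.castSucc then 1 else 0

lemma Z0_up (h : MvPolynomial (Fin m × Fin M) ℂ) : lsub m (Z0 M) (up h) = LAM m M h := by
  apply MvPolynomial.funext
  intro x
  rw [up, map_sum, map_sum, Fin.sum_univ_castSucc, LAM_apply, map_add, map_sum, add_comm]
  congr 1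
  · rw [eval_lsub, rc, eval_rename]
    refine eval_congr _ fun p => ?_
    simp only [Function.comp_apply, ins, Equiv.swap_self, Equiv.refl_apply, Z0]
    simp
  · refine Finset.sum_congr rfl fun j _ => ?_
    rw [eval_lsub, rc, eval_rename, kz, eval_lsub]
    refine eval_congr _ fun p => ?_
    simp only [Function.comp_apply]
    refine Finset.sum_congr rfl fun c _ => ?_
    congr 1
    rw [Z0, ins]
    by_cases hp : p.2 = j
    · rw [hp, Equiv.swap_apply_left, if_neg, if_neg]
      · tauto
      · exact (Fin.castSucc_lt_last c).ne'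
    · rw [Equiv.swap_apply_of_ne_of_ne]
      · simp [hp]
      · intro h'
        exact hp (Fin.castSucc_injective M h')
      · exact (Fin.castSucc_lt_last p.2).ne

/-! ### The restriction and its section -/

/-- The restriction `Y_j = Z_j - mean(Z)`, `Y_last = 0`. -/
noncomputable def RR (M : ℕ) : Fin (M + 1) → Fin M → ℂ :=
  Fin.snoc (α := fun _ => Fin M → ℂ) (cen M) 0

lemma RR_castSucc (j : Fin M) : RR M j.castSucc = cen M j := by
  rw [RR, Fin.snoc_castSucc]

lemma RR_last : RR M (Fin.last M) = 0 := by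
  rw [RR, Fin.snoc_last]

lemma sum_RR (hM : 1 ≤ M) (c : Fin M) : ∑ j, RR M j c = 0 := by
  rw [Fin.sum_univ_castSucc, RR_last, Pi.zero_apply, add_zero,
    Finset.sum_congr rfl fun j _ => by rw [RR_castSucc j]]
  exact sum_cen' hM c

/-- The section. -/
theorem exists_section (hM : 1 ≤ M) {mu : Fin m → ℕ} {f : MvPolynomial (Fin m × Fin M) ℂ}
    (hf : f ∈ TI M (∑ i, mu i) m mu) :
    ∃ F ∈ TI (M + 1) (∑ i, mu i) m mu, lsub m (RR M) F = f := by
  obtain ⟨h1, h2, h3, h4⟩ := mem_TI.1 hf
  obtain ⟨h, hh, hhf⟩ := exists_LAM (mem_Sy.2 ⟨h1, h2⟩ : f ∈ Sy m M mu)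
  have hHW : lsub m (cen (M + 1)) (up h) ∈ HW m (Fin (M + 1)) mu :=
    lsub_mem_HW _ (up_mem_HW hh.1)
  refine ⟨lsub m (cen (M + 1)) (up h), mem_TI.2 ⟨hHW, fun e => ?_, fun v hv j => ?_,
    fun i => ?_⟩, ?_⟩
  · rw [rename_lsub_cen, up_sym hh.2]
  · rw [← Finset.sum_congr rfl fun i _ => hHW.1 v hv i, Finset.sum_comm]
    exact Finset.single_le_sum (f := fun j => ∑ i, v (i, j)) (fun _ _ => Nat.zero_le _)
      (Finset.mem_univ j)
  · exact tr_lsub (cen (M + 1)) (id : Fin (M + 1) → Fin (M + 1))
      (fun j => sum_cen (by omega) j) i (up h)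
  · rw [lsub_lsub]
    have e1 : (fun (j : Fin (M + 1)) (c : Fin M) => ∑ k, cen (M + 1) j k * RR M k c) =
        fun j c => ∑ k, Z0 M j k * cen M k c := by
      funext j c
      rw [sum_cen_mul j fun k => RR M k c, sum_RR hM, mul_zero, sub_zero]
      induction j using Fin.lastCases with
      | last =>
        rw [RR_last, Pi.zero_apply]
        symm
        refine Finset.sum_eq_zero fun k _ => ?_
        rw [Z0, if_neg (Fin.castSucc_lt_last k).ne', zero_mul]
      | cast j =>
        rw [RR_castSucc, Finset.sum_eq_single j]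
        · rw [Z0, if_pos rfl, one_mul]
        · intro k _ hk
          rw [Z0, if_neg, zero_mul]
          intro h'
          exact hk (Fin.castSucc_injective M h').symm
        · intro h'
          exact absurd (Finset.mem_univ _) h'
    rw [e1, ← lsub_lsub, Z0_up, hhf]
    exact lsub_cen f h4

end Vale.Agent.P181.TW.T5
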