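import Vale.Agent.P181.DG6.H887.Sub
import Vale.Agent.P181.DG4a.Pol

set_option autoImplicit false

/-!
# P181, TW (T5): tools for linear substitutions of columns
-/

open MvPolynomial

namespace Vale.Agent.P181.TW5

open Vale.Agent.P181.T4 (HW)
open Vale.Agent.P181.SZR3 (colD colD_X)
open Vale.Agent.P181.DG6.H887
open Vale.Agent.P181.DG4a

variable {m : ℕ} {σ τ ρ : Type}

lemma lsub_lsub [Fintype τ] [Fintype ρ] (A : σ → τ → ℂ) (B : τ → ρ → ℂ)
    (f : MvPolynomial (Fin m × σ) ℂ) :
    lsub m B (lsub m A f) = lsub m (fun j c => ∑ k, A j k * B k c) f := by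
  have h : (lsub m B).comp (lsub m A) = lsub m (fun j c => ∑ k, A j k * B k c) := by
    apply MvPolynomial.algHom_ext
    rintro ⟨i, j⟩
    rw [AlgHom.comp_apply, lsub_X, lsub_X, map_sum]
    have h1 : ∀ k : τ, lsub m B (C (A j k) * X (i, k)) =
        ∑ c, C (A j k * B k c) * X (i, c) := by
      intro k
      have h2 : lsub m B (C (A j k)) = C (A j k) := (lsub m B).commutes _
      rw [map_mul, h2, lsub_X, Finset.mul_sum]
      refine Finset.sum_congr rfl fun c _ => ?_
      rw [map_mul, mul_assoc]
    rw [Finset.sum_congr rfl fun k _ => h1 k, Finset.sum_comm]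
    refine Finset.sum_congr rfl fun c _ => ?_
    rw [map_sum, Finset.sum_mul]
  exact congrArg (fun q => q f) h

/-- A renaming as a substitution. -/
lemma rn_eq_lsub [Fintype τ] [DecidableEq τ] (φ : σ → τ) (f : MvPolynomial (Fin m × σ) ℂ) :
    rn φ f = lsub m (fun j c => if φ j = c then 1 else 0) f := by
  have h : (rn φ : MvPolynomial (Fin m × σ) ℂ →ₐ[ℂ] MvPolynomial (Fin m × τ) ℂ) =
      lsub m (fun j c => if φ j = c then 1 else 0) := by
    apply MvPolynomial.algHom_ext
    rintro ⟨i, j⟩
    rw [lsub_X, rn, rename_X, Finset.sum_eq_single (φ j)]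
    · simp
    · intro c _ hc
      rw [if_neg (Ne.symm hc)]
      simp
    · intro hn
      exact absurd (Finset.mem_univ _) hn
  exact congrArg (fun q => q f) h

lemma lsub_one [Fintype σ] [DecidableEq σ] (f : MvPolynomial (Fin m × σ) ℂ) :
    lsub m (fun j c => if j = c then 1 else 0) f = f := by
  have h := rn_eq_lsub (m := m) (id : σ → σ) f
  rw [← show (fun j c => if (id : σ → σ) j = c then (1 : ℂ) else 0) =
    fun j c => if j = c then 1 else 0 from rfl, ← h, rn]
  exact (congrFun (congrArg DFunLike.coe (rename_id (R := ℂ) (σ := Fin m × σ))) f)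

/-- The rows of the columns which do not occur do not matter. -/
lemma lsub_congr [Fintype σ] [Fintype τ] (A B : σ → τ → ℂ) (f : MvPolynomial (Fin m × σ) ℂ)
    (h : ∀ j, A j = B j ∨ ∀ v, coeff v f ≠ 0 → cdeg v j = 0) : lsub m A f = lsub m B f := by
  rw [f.as_sum, map_sum, map_sum]
  refine Finset.sum_congr rfl fun v hv => ?_
  rw [lsub, lsub, aeval_monomial, aeval_monomial]
  congr 1
  refine Finsupp.prod_congr fun p hp => ?_
  rcases h p.2 with h1 | h1
  · rw [h1]
  · exfalso
    have h2 := h1 v (mem_support_iff.1 hv)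
    rw [cdeg, Finset.sum_eq_zero_iff] at h2
    exact Finsupp.mem_support_iff.1 hp (h2 p.1 (Finset.mem_univ _))

/-- A zero row kills. -/
lemma lsub_kill [Fintype σ] [Fintype τ] (A : σ → τ → ℂ) (j : σ) (hj : ∀ c, A j c = 0)
    (f : MvPolynomial (Fin m × σ) ℂ) (h : ∀ v, coeff v f ≠ 0 → cdeg v j ≠ 0) :
    lsub m A f = 0 := by
  rw [f.as_sum, map_sum]
  refine Finset.sum_eq_zero fun v hv => ?_
  rw [lsub, aeval_monomial]
  have h1 := h v (mem_support_iff.1 hv)
  obtain ⟨i, _, hi⟩ := Finset.exists_ne_zero_of_sum_ne_zero h1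
  have h2 : (v.prod fun p k => (∑ c, C (A p.2 c) * X (p.1, c) :
      MvPolynomial (Fin m × τ) ℂ) ^ k) = 0 := by
    rw [Finsupp.prod]
    apply Finset.prod_eq_zero (i := (i, j)) (Finsupp.mem_support_iff.2 hi)
    have h3 : (∑ c, C (A j c) * X (i, c) : MvPolynomial (Fin m × τ) ℂ) = 0 :=
      Finset.sum_eq_zero fun c _ => by rw [hj, C_0, zero_mul]
    rw [h3, zero_pow hi]
  rw [h2, mul_zero]

/-- Substitutions and column operators. -/
lemma lsub_colD [DecidableEq σ] [Fintype τ] [DecidableEq τ] (A : σ → τ → ℂ) (w v : σ) (v' : τ)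
    (hv : ∀ c, A v c = if c = v' then 1 else 0) (hA : ∀ j, j ≠ v → A j v' = 0)
    (hw : w ≠ v) (f : MvPolynomial (Fin m × σ) ℂ) :
    lsub m A (colD w v f) = ∑ c, A w c • colD c v' (lsub m A f) := by
  have key := der_comm (lsub m A) (colD w v) (∑ c, A w c •
    (colD c v' : Derivation ℂ (MvPolynomial (Fin m × τ) ℂ) _)) ?_ f
  · rw [← key, SZR3.der_sum]
    rfl
  · rintro ⟨i, j⟩
    rw [SZR3.der_sum, colD_X, lsub_X]
    have h1 : ∀ c : τ, (A w c • (colD c v' : Derivation ℂ (MvPolynomial (Fin m × τ) ℂ) _))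
        (∑ c', C (A j c') * X (i, c')) = if j = v then C (A w c) * X (i, c) else 0 := by
      intro c
      rw [Derivation.smul_apply, map_sum]
      have h2 : ∀ c' : τ, colD c v' (C (A j c') * X (i, c') : MvPolynomial (Fin m × τ) ℂ) =
          if c' = v' then C (A j c') * X (i, c) else 0 := by
        intro c'
        rw [Derivation.leibniz, colD_X]
        have h3 : (colD c v' : Derivation ℂ (MvPolynomial (Fin m × τ) ℂ) _) (C (A j c')) = 0 :=
          Derivation.map_algebraMap _ _
        rw [h3, smul_zero, add_zero, smul_eq_mul]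
        split_ifs <;> simp
      rw [Finset.sum_congr rfl fun c' _ => h2 c', Finset.sum_ite_eq' Finset.univ v',
        if_pos (Finset.mem_univ _)]
      by_cases hj : j = v
      · subst hj
        rw [if_pos rfl, hv, if_pos rfl, C_1, one_mul, smul_eq_C_mul]
      · rw [if_neg hj, hA j hj, C_0, zero_mul, smul_zero]
    rw [Finset.sum_congr rfl fun c _ => h1 c]
    by_cases hj : j = v
    · simp only [if_pos hj]
      rw [lsub_X]
    · simp only [if_neg hj, Finset.sum_const_zero, map_zero]

/-- No derivative, no variable. -/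
lemma cdeg_eq_zero_of_pderiv [Fintype τ] [DecidableEq τ] (j : τ)
    (f : MvPolynomial (Fin m × τ) ℂ)
    (h : ∀ i, pderiv (i, j) f = 0) (v : Fin m × τ →₀ ℕ) (hv : coeff v f ≠ 0) :
    cdeg v j = 0 := by
  classical
  rw [cdeg, Finset.sum_eq_zero_iff]
  intro i _
  by_contra hne
  have h1 := congrArg (coeff (v - Finsupp.single (i, j) 1)) (h i)
  rw [coeff_pderiv, coeff_zero] at h1
  have h2 : v - Finsupp.single (i, j) 1 + Finsupp.single (i, j) 1 = v := by
    ext p
    by_cases hp : p = (i, j)
    · subst hp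
      simp
      omega
    · simp [Ne.symm hp]
  rw [h2] at h1
  rcases mul_eq_zero.1 h1 with h3 | h3
  · exact hv h3
  · have h4 : (((v - Finsupp.single (i, j) 1 : Fin m × τ →₀ ℕ) (i, j) : ℕ) : ℂ) + 1 ≠ 0 :=
      Nat.cast_add_one_ne_zero _
    exact h4 h3

/-- **Translation invariance as a substitution.** -/
lemma shift_inv [Fintype τ] [DecidableEq τ] (K : Finset τ) (t : τ → ℂ)
    (f : MvPolynomial (Fin m × τ) ℂ) (hf : ∀ i, ∑ j ∈ K, pderiv (i, j) f = 0) :
    lsub m (fun j c => (if j = c then 1 else 0) + if j ∈ K then t c else 0) f = f := by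
  classical
  let A : τ → Option τ → ℂ := fun j c =>
    match c with
    | none => if j ∈ K then 1 else 0
    | some c => if j = c then 1 else 0
  let F := lsub m A f
  have h1 : ∀ i, pderiv (i, none) F = 0 := by
    intro i
    have key := der_comm (lsub m A) (∑ j ∈ K, pderiv (R := ℂ) (i, j))
      (pderiv (R := ℂ) (i, none)) ?_ f
    · rw [SZR3.der_sum, hf i, map_zero] at key
      exact key
    · rintro ⟨i', j⟩
      rw [SZR3.der_sum, lsub_X, map_sum]
      have h2 : ∀ c : Option τ, pderiv (i, none) (C (A j c) * X (i', c) :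
          MvPolynomial (Fin m × Option τ) ℂ) = if (i', c) = (i, none) then C (A j c) else 0 := by
        intro c
        rw [pderiv_C_mul, SZR3.pderiv_X']
        split_ifs <;> simp
      rw [Finset.sum_congr rfl fun c _ => h2 c]
      have h3 : ∀ j' ∈ K, pderiv (i, j') (X (i', j) : MvPolynomial (Fin m × τ) ℂ) =
          if (i', j) = (i, j') then 1 else 0 := fun j' _ => SZR3.pderiv_X' _ _
      have h4 : ∑ c : Option τ, (if (i', c) = (i, none) then
          (C (A j c) : MvPolynomial (Fin m × Option τ) ℂ) else 0) =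
          if i' = i ∧ j ∈ K then 1 else 0 := by
        rw [Fintype.sum_option, Finset.sum_eq_zero (fun b _ => by simp), add_zero]
        by_cases hi : i' = i <;> by_cases hj : j ∈ K <;> simp [A, hi, hj]
      have h5 : ∑ j' ∈ K, (if (i', j) = (i, j') then (1 : MvPolynomial (Fin m × τ) ℂ) else 0) =
          if i' = i ∧ j ∈ K then 1 else 0 := by
        by_cases hi : i' = i
        · simp [hi]
        · simp [hi]
      rw [Finset.sum_congr rfl h3, h4, h5]
      split_ifs
      · rw [map_one]
      · rw [map_zero]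
  let B : Option τ → τ → ℂ := fun k c =>
    match k with
    | none => t c
    | some k => if k = c then 1 else 0
  let B' : Option τ → τ → ℂ := fun k c =>
    match k with
    | none => 0
    | some k => if k = c then 1 else 0
  have h2 : lsub m B F = lsub m B' F := by
    apply lsub_congr
    intro k
    rcases k with _ | k
    · right
      exact fun v hv => cdeg_eq_zero_of_pderiv none F h1 v hv
    · left
      rfl
  rw [lsub_lsub, lsub_lsub] at h2
  have h3 : (fun (j : τ) (c : τ) => ∑ k, A j k * B k c) =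
      fun j c => (if j = c then 1 else 0) + if j ∈ K then t c else 0 := by
    funext j c
    rw [Fintype.sum_option, Finset.sum_eq_single j]
    · by_cases hj : j ∈ K <;> simp [A, B, hj, add_comm]
    · intro b _ hb
      simp [A, Ne.symm hb]
    · intro hn
      exact absurd (Finset.mem_univ _) hn
  have h4 : (fun (j : τ) (c : τ) => ∑ k, A j k * B' k c) =
      fun j c => if j = c then 1 else 0 := by
    funext j c
    rw [Fintype.sum_option, Finset.sum_eq_single j]
    · simp [A, B']
    · intro b _ hb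
      simp [A, Ne.symm hb]
    · intro hn
      exact absurd (Finset.mem_univ _) hn
  rw [h3, h4, lsub_one] at h2
  exact h2

end Vale.Agent.P181.TW5
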