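import Vale.Agent.P181.TW.T5.Tools
import Vale.Agent.P181.TW.Defs

set_option autoImplicit false

/-!
# P181, TW (T5b): the map `B(G) = ∏ j, (q_j · ∂_v) G` with centred points `q_j`
-/

open MvPolynomial

namespace Vale.Agent.P181.TW5

open Vale.Agent.P181.T4 (HW mem_HW)
open Vale.Agent.P181.SZ (TI mem_TI)
open Vale.Agent.P181.SZR3 (colD colD_X colD_eq mem_HW_itD itD_succ itD_zero)
open Vale.Agent.P181.SZT0 (rc rc_mem_HW)
open Vale.Agent.P181.DG6.H887
open Vale.Agent.P181.DG4a
open Vale.Agent.P181.TW

section gen

variable {m : ℕ} {τ : Type} [DecidableEq τ]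

lemma colD_comm {a b c : τ} (ha : a ≠ c) (hb : b ≠ c) (f : MvPolynomial (Fin m × τ) ℂ) :
    colD a c (colD b c f) = colD b c (colD a c f) := by
  have h : ⁅(colD a c : Derivation ℂ (MvPolynomial (Fin m × τ) ℂ) (MvPolynomial (Fin m × τ) ℂ)),
      (colD b c : Derivation ℂ (MvPolynomial (Fin m × τ) ℂ) (MvPolynomial (Fin m × τ) ℂ))⁆ =
      0 := by
    apply derivation_ext
    rintro ⟨k, l⟩
    rw [Derivation.commutator_apply, colD_X, colD_X, Derivation.zero_apply]
    by_cases hl : l = c
    · subst hl
      simp [colD_X, ha, hb]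
    · simp [hl]
  have h1 := congrArg (fun D => D f) h
  simp only [Derivation.commutator_apply, Derivation.zero_apply] at h1
  exact sub_eq_zero.1 h1

lemma polL_perm {c : τ} {L L' : List τ} (h : L.Perm L') (hL : ∀ a ∈ L, a ≠ c)
    (f : MvPolynomial (Fin m × τ) ℂ) : polL c L f = polL c L' f := by
  induction h with
  | nil => rfl
  | cons a _ ih =>
    rw [polL_cons, polL_cons, ih fun b hb => hL b (List.mem_cons_of_mem _ hb)]
  | swap a b L =>
    rw [polL_cons, polL_cons, polL_cons, polL_cons,
      colD_comm (hL b (by simp)) (hL a (by simp))]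
  | trans h1 _ ih1 ih2 => rw [ih1 hL, ih2 fun a ha => hL a (h1.mem_iff.2 ha)]

lemma polL_append (c : τ) (L L' : List τ) (f : MvPolynomial (Fin m × τ) ℂ) :
    polL c (L ++ L') f = polL c L (polL c L' f) := by
  induction L with
  | nil => rfl
  | cons a L ih => rw [List.cons_append, polL_cons, polL_cons, ih]

lemma mem_HW_polL' [Fintype τ] {c : τ} {mu : Fin m → ℕ} (L : List τ)
    {f : MvPolynomial (Fin m × τ) ℂ} (hf : f ∈ HW m τ mu) : polL c L f ∈ HW m τ mu := by
  induction L with
  | nil => exact hf
  | cons a L ih =>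
    have h := mem_HW_itD (a := a) (c := c) ih 1
    rw [itD_succ, itD_zero] at h
    exact h

end gen

variable {m M : ℕ}

/-- The columns: `v = inl none`, `Y_j = inl (some j)`, and the new `w_j = inr j`. -/
abbrev Cl (M : ℕ) : Type := Option (Fin (M + 1)) ⊕ Fin (M + 1)

/-- The list of the columns `w_j`. -/
def Lw (M : ℕ) : List (Cl M) := (List.finRange (M + 1)).map Sum.inr

/-- `∏ j, (w_j · ∂_v) G`. -/
noncomputable def WG (m M : ℕ) :
    MvPolynomial (Fin m × Option (Fin (M + 1))) ℂ →ₗ[ℂ] MvPolynomial (Fin m × Cl M) ℂ :=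
  polL (Sum.inl none) (Lw M) ∘ₗ (rn Sum.inl).toLinearMap

lemma WG_apply (G : MvPolynomial (Fin m × Option (Fin (M + 1))) ℂ) :
    WG m M G = polL (Sum.inl none) (Lw M) (rn Sum.inl G) := rfl

/-- The centred point `Y_j - mean Y`. -/
noncomputable def cen (M : ℕ) (j k : Fin (M + 1)) : ℂ :=
  (if j = k then 1 else 0) - 1 / ((M : ℂ) + 1)

lemma sum_cen (j : Fin (M + 1)) : ∑ k, cen M j k = 0 := by
  have h : (M : ℂ) + 1 ≠ 0 := Nat.cast_add_one_ne_zero M
  simp only [cen, Finset.sum_sub_distrib, Finset.sum_ite_eq, Finset.mem_univ, if_true,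
    Finset.sum_const, Finset.card_univ, Fintype.card_fin, nsmul_eq_mul]
  push_cast
  field_simp
  ring

/-- The matrix of `B`. -/
noncomputable def AB (M : ℕ) : Cl M → Fin (M + 1) → ℂ
  | .inl none => fun _ => 0
  | .inl (some j) => cen M j
  | .inr j => cen M j

/-- **The map `B`.** -/
noncomputable def BG (m M : ℕ) :
    MvPolynomial (Fin m × Option (Fin (M + 1))) ℂ →ₗ[ℂ] MvPolynomial (Fin m × Fin (M + 1)) ℂ :=
  (lsub m (AB M)).toLinearMap ∘ₗ WG m M

lemma BG_apply (G : MvPolynomial (Fin m × Option (Fin (M + 1))) ℂ) :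
    BG m M G = lsub m (AB M) (WG m M G) := rfl

lemma inl_inj : Function.Injective (Sum.inl : Option (Fin (M + 1)) → Cl M) := Sum.inl_injective

/-- The monomials of `WG`. -/
lemma exists_coeff_WG (G : MvPolynomial (Fin m × Option (Fin (M + 1))) ℂ)
    (v : Fin m × Cl M →₀ ℕ) (h : coeff v (WG m M G) ≠ 0) :
    ∃ u, coeff u G ≠ 0 ∧ cdeg v (Sum.inl none) + (M + 1) = cdeg u none ∧
      ∀ j, cdeg v (Sum.inr j) = 1 := by
  obtain ⟨w, hw, hw2⟩ := exists_coeff_polL _ _ _ v h
  obtain ⟨u, hu, rfl⟩ := exists_coeff_rn _ _ w hw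
  refine ⟨u, hu, ?_, fun j => ?_⟩
  · have h1 := hw2 (Sum.inl none)
    rw [if_pos rfl, cnt_eq_zero (by simp [Lw]), Lw, List.length_map, List.length_finRange,
      cdeg_mapDomain, add_zero] at h1
    rw [h1]
    have h2 : Finset.univ.filter (fun x : Option (Fin (M + 1)) => (Sum.inl x : Cl M) =
        Sum.inl none) = {none} := by
      ext x
      simp
    rw [h2, Finset.sum_singleton]
  · have h1 := hw2 (Sum.inr j)
    rw [if_neg (by simp), cnt_eq_one (by
      rw [Lw]
      exact (List.nodup_finRange _).map Sum.inr_injective) (by simp [Lw]),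
      cdeg_mapDomain, add_zero] at h1
    rw [h1]
    have h2 : Finset.univ.filter (fun x : Option (Fin (M + 1)) => (Sum.inl x : Cl M) =
        Sum.inr j) = ∅ := by
      ext x
      simp
    rw [h2, Finset.sum_empty]

lemma WG_sym (e : Equiv.Perm (Fin (M + 1))) (G : MvPolynomial (Fin m × Option (Fin (M + 1))) ℂ)
    (hG : rn (Option.map e) G = G) : rn (Sum.map (Option.map e) e) (WG m M G) = WG m M G := by
  rw [WG_apply, rn_polL]
  · rw [rn_rn]
    have h1 : (Sum.map (Option.map e) e : Cl M → Cl M) ∘ Sum.inl =
        Sum.inl ∘ Option.map e := rfl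
    rw [h1, ← rn_rn, hG]
    have h2 : (Sum.map (Option.map e) e : Cl M → Cl M) (Sum.inl none) = Sum.inl none := rfl
    rw [h2]
    apply polL_perm
    · have h3 : (Lw M).map (Sum.map (Option.map e) e) =
          ((List.finRange (M + 1)).map e).map Sum.inr := by
        rw [Lw, List.map_map, List.map_map]
        rfl
      rw [h3, Lw]
      exact (Equiv.Perm.map_finRange_perm e).map _
    · intro a ha
      rw [Lw, List.map_map, List.mem_map] at ha
      obtain ⟨x, _, rfl⟩ := ha
      simp
  · rintro ((_ | x) | x) hx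
    · rfl
    · simp at hx
    · simp at hx

lemma sum_row_HW {τ : Type} [Fintype τ] {mu : Fin m → ℕ} {f : MvPolynomial (Fin m × τ) ℂ}
    (hf : f ∈ HW m τ mu) (v : Fin m × τ →₀ ℕ) (hv : coeff v f ≠ 0) :
    ∑ j, ∑ i, v (i, j) = ∑ i, mu i := by
  rw [Finset.sum_comm]
  exact Finset.sum_congr rfl fun i _ => (mem_HW.1 hf).1 v hv i

/-- **(b1)** -/
theorem BG_mem {x : ℕ} {mu : Fin m → ℕ} {G : MvPolynomial (Fin m × Option (Fin (M + 1))) ℂ}
    (hG : G ∈ PX m x (M + 1) mu) : BG m M G ∈ TI (M + 1) (∑ i, mu i) m mu := by
  obtain ⟨h1, _, h3, _⟩ := mem_PX.1 hG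
  have hHW : BG m M G ∈ HW m (Fin (M + 1)) mu :=
    lsub_mem_HW _ (mem_HW_polL' _ ((rc_mem_HW inl_inj).2 h1))
  refine mem_TI.2 ⟨hHW, fun e => ?_, fun v hv j => ?_, fun i => ?_⟩
  · change rn e (BG m M G) = BG m M G
    conv_rhs => rw [BG_apply, ← WG_sym e G (h3 e), rn_eq_lsub, lsub_lsub]
    rw [BG_apply, rn_eq_lsub, lsub_lsub]
    congr 2
    funext j c
    have e1 : ∑ k, (if (Sum.map (Option.map e) e : Cl M → Cl M) j = k then (1 : ℂ) else 0) *
        AB M k c = AB M ((Sum.map (Option.map e) e : Cl M → Cl M) j) c := by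
      rw [Finset.sum_eq_single ((Sum.map (Option.map e) e : Cl M → Cl M) j)]
      · rw [if_pos rfl, one_mul]
      · intro b _ hb
        rw [if_neg (Ne.symm hb), zero_mul]
      · intro hn
        exact absurd (Finset.mem_univ _) hn
    have e2 : ∑ k, AB M j k * (if e k = c then (1 : ℂ) else 0) = AB M j (e.symm c) := by
      rw [Finset.sum_eq_single (e.symm c)]
      · rw [if_pos (e.apply_symm_apply c), mul_one]
      · intro b _ hb
        rw [if_neg, mul_zero]
        intro h
        exact hb (by rw [← h, e.symm_apply_apply])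
      · intro hn
        exact absurd (Finset.mem_univ _) hn
    rw [e1, e2]
    have e3 : ∀ j : Fin (M + 1), cen M j (e.symm c) = cen M (e j) c := by
      intro j
      rw [cen, cen]
      congr 1
      by_cases h : e j = c
      · rw [if_pos h, if_pos (by rw [← h, e.symm_apply_apply])]
      · rw [if_neg h, if_neg fun h4 => h (by rw [h4, e.apply_symm_apply])]
    rcases j with (_ | j) | j
    · rfl
    · exact e3 j
    · exact e3 j
  · rw [← sum_row_HW hHW v hv]
    exact Finset.single_le_sum (f := fun j => ∑ i, v (i, j)) (fun _ _ => Nat.zero_le _)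
      (Finset.mem_univ j)
  · refine tr_lsub (AB M) (fun c => c) (fun j => ?_) i _
    rcases j with (_ | j) | j
    · exact Finset.sum_const_zero
    · exact sum_cen j
    · exact sum_cen j

/-- **(b2)** -/
theorem BG_zero {τ : Type} [Fintype τ] (A : Fin (M + 1) → τ → ℂ)
    (h1 : ∀ c, A (Fin.last M) c = 0) (h2 : ∀ c, ∑ k, A k c = 0)
    (G : MvPolynomial (Fin m × Option (Fin (M + 1))) ℂ) : lsub m A (BG m M G) = 0 := by
  rw [BG_apply, lsub_lsub]
  apply lsub_kill _ (Sum.inr (Fin.last M))
  · intro c
    simp only [AB, cen, sub_mul]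
    rw [Finset.sum_sub_distrib, ← Finset.mul_sum, h2, mul_zero, sub_zero,
      Finset.sum_eq_single (Fin.last M)]
    · rw [h1, mul_zero]
    · intro b _ hb
      rw [if_neg (Ne.symm hb), zero_mul]
    · intro hn
      exact absurd (Finset.mem_univ _) hn
  · intro v hv
    obtain ⟨u, _, _, h3⟩ := exists_coeff_WG G v hv
    rw [h3]
    exact one_ne_zero

lemma pol_eq (j : Fin M) (f : MvPolynomial (Fin m × Option (Fin M)) ℂ) :
    pol j f = colD (some j) none f := by
  rw [colD_eq, pol, LinearMap.sum_apply]
  rfl

lemma polAll_eq (f : MvPolynomial (Fin m × Option (Fin M)) ℂ) :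
    polAll f = polL none ((List.finRange M).map some) f := by
  have key : ∀ L : List (Fin M), (L.map fun j => (pol j : Module.End ℂ
      (MvPolynomial (Fin m × Option (Fin M)) ℂ))).prod f = polL none (L.map some) f := by
    intro L
    induction L with
    | nil => rfl
    | cons a L ih =>
      rw [List.map_cons, List.prod_cons, Module.End.mul_apply, ih, pol_eq, List.map_cons,
        polL_cons]
  exact key _

/-- The points `q_1, .., q_M, - ∑ q`. -/
noncomputable def ss (M : ℕ) (j : Fin (M + 1)) (c : Option (Fin M)) : ℂ :=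
  Fin.lastCases (motive := fun _ => ℂ) (if c = none then 0 else -1)
    (fun j => if some j = c then 1 else 0) j

lemma ss_last (c : Option (Fin M)) : ss M (Fin.last M) c = if c = none then 0 else -1 :=
  Fin.lastCases_last

lemma ss_cast (j : Fin M) (c : Option (Fin M)) :
    ss M j.castSucc c = if some j = c then 1 else 0 := Fin.lastCases_castSucc j

lemma sum_ss (c : Option (Fin M)) : ∑ k, ss M k c = 0 := by
  rw [Fin.sum_univ_castSucc, ss_last]
  simp only [ss_cast]
  rcases c with _ | c
  · simp
  · simp

lemma ss_none (j : Fin (M + 1)) : ss M j none = 0 := by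
  refine Fin.lastCases ?_ (fun j => ?_) j
  · rw [ss_last, if_pos rfl]
  · rw [ss_cast, if_neg (by simp)]

/-- The matrix of `v ↦ v, Y_j, w_j ↦ s_j`. -/
noncomputable def A6 (M : ℕ) : Cl M → Option (Fin M) → ℂ
  | .inl none => fun c => if c = none then 1 else 0
  | .inl (some j) => ss M j
  | .inr j => ss M j

/-- The shift by the mean. -/
noncomputable def tt (M : ℕ) (c : Option (Fin (M + 1))) : ℂ :=
  if c = none then 0 else -(1 / ((M : ℂ) + 1))

/-- The matrix of `v ↦ v, q_j ↦ Y_j - mean Y`. -/
noncomputable def A7 (M : ℕ) : Option (Fin M) → Option (Fin (M + 1)) → ℂ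
  | none => fun c => if none = c then 1 else 0
  | some j => fun c => (if some j.castSucc = c then 1 else 0) + tt M c

lemma sum_A7 (c : Option (Fin (M + 1))) : ∑ k : Fin M, A7 M (some k) c =
    -((if some (Fin.last M) = c then 1 else 0) + tt M c) := by
  have hM1 : (M : ℂ) + 1 ≠ 0 := Nat.cast_add_one_ne_zero M
  simp only [A7, Finset.sum_add_distrib, Finset.sum_const, Finset.card_univ, Fintype.card_fin,
    nsmul_eq_mul]
  rcases c with _ | c
  · simp [tt]
  · refine Fin.lastCases ?_ (fun c => ?_) c
    · have h11 : ∀ k : Fin M, ¬ (some k.castSucc : Option (Fin (M + 1))) =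
          some (Fin.last M) := by
        intro k hk
        exact absurd (Option.some_injective _ hk) (Fin.castSucc_lt_last k).ne
      simp only [h11, if_false, Finset.sum_const_zero, tt, if_true, reduceCtorEq]
      field_simp
      ring
    · have h11 : ¬ (some (Fin.last M) : Option (Fin (M + 1))) = some c.castSucc := by
        intro hk
        exact absurd (Option.some_injective _ hk) (Fin.castSucc_lt_last c).ne'
      have h12 : ∑ k : Fin M, (if (some k.castSucc : Option (Fin (M + 1))) =
          some c.castSucc then (1 : ℂ) else 0) = 1 := by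
        rw [Finset.sum_eq_single c]
        · simp
        · intro b _ hb
          rw [if_neg]
          intro hk
          exact hb (Fin.castSucc_injective M (Option.some_injective _ hk))
        · intro hn
          exact absurd (Finset.mem_univ _) hn
      rw [h12, if_neg h11]
      simp only [tt, if_false, reduceCtorEq]
      field_simp
      ring

lemma mat_eq : (fun (j c : Option (Fin (M + 1))) => ∑ k, A6 M (Sum.inl j) k * A7 M k c) =
    fun j c => (if j = c then 1 else 0) +
      if j ∈ Finset.univ.map Function.Embedding.some then tt M c else 0 := by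
  funext j c
  rw [Fintype.sum_option]
  rcases j with _ | j
  · have h9 : ∀ k : Fin M, A6 M (Sum.inl none) (some k) = 0 := by
      intro k
      change (if (some k : Option (Fin M)) = none then (1 : ℂ) else 0) = 0
      exact if_neg (by simp)
    have h10 : A6 M (Sum.inl none) none = 1 := by
      change (if (none : Option (Fin M)) = none then (1 : ℂ) else 0) = 1
      exact if_pos rfl
    have hm : (none : Option (Fin (M + 1))) ∉ Finset.univ.map Function.Embedding.some := by
      simp
    simp only [h9, h10, zero_mul, Finset.sum_const_zero, add_zero, one_mul]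
    rw [if_neg hm, add_zero]
    rfl
  · have h9 : A6 M (Sum.inl (some j)) none = 0 := ss_none j
    have hm : (some j : Option (Fin (M + 1))) ∈ Finset.univ.map Function.Embedding.some := by
      simp
    rw [h9, zero_mul, zero_add, if_pos hm]
    clear hm h9
    refine Fin.lastCases ?_ (fun j => ?_) j
    · have h10 : ∀ k : Fin M, A6 M (Sum.inl (some (Fin.last M))) (some k) = -1 := by
        intro k
        change ss M (Fin.last M) (some k) = -1
        rw [ss_last, if_neg (by simp)]
      simp only [h10, neg_one_mul]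
      rw [Finset.sum_neg_distrib, sum_A7, neg_neg]
    · rw [Finset.sum_eq_single j]
      · have h10 : A6 M (Sum.inl (some j.castSucc)) (some j) = 1 := by
          change ss M j.castSucc (some j) = 1
          rw [ss_cast, if_pos rfl]
        rw [h10, one_mul]
        rfl
      · intro b _ hb
        have h10 : A6 M (Sum.inl (some j.castSucc)) (some b) = 0 := by
          change ss M j.castSucc (some b) = 0
          rw [ss_cast, if_neg]
          intro hk
          exact hb (Option.some_injective _ hk).symm
        rw [h10, zero_mul]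
      · intro hn
        exact absurd (Finset.mem_univ _) hn

/-- **(b3)** -/
theorem BG_ker (hK : KerM) (hM : 1 ≤ M) {mu : Fin m → ℕ} (hw : ∑ i, mu i ≤ 2 * M)
    {G : MvPolynomial (Fin m × Option (Fin (M + 1))) ℂ} (hG : G ∈ PX m (M + 1) (M + 1) mu)
    (h0 : BG m M G = 0) : G = 0 := by
  obtain ⟨h1, h2, _, h4⟩ := mem_PX.1 hG
  let A5 : Option (Fin (M + 1)) → Option (Fin M) → ℂ := fun j => A6 M (Sum.inl j)
  let g := lsub m A5 G
  have e0 : lsub m (A6 M) (rn Sum.inl G) = g := by
    rw [rn_eq_lsub, lsub_lsub]
    congr 2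
    funext j c
    rw [Finset.sum_eq_single (Sum.inl j)]
    · rw [if_pos rfl, one_mul]
    · intro b _ hb
      rw [if_neg (Ne.symm hb), zero_mul]
    · intro hn
      exact absurd (Finset.mem_univ _) hn
  have e1 : ∀ (j : Fin (M + 1)) (f : MvPolynomial (Fin m × Cl M) ℂ),
      lsub m (A6 M) (colD (Sum.inr j) (Sum.inl none) f) =
        ∑ c, ss M j c • colD c none (lsub m (A6 M) f) := by
    intro j f
    refine lsub_colD (A6 M) (Sum.inr j) (Sum.inl none) none (fun c => rfl) ?_ (by simp) f
    rintro ((_ | j) | j) hj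
    · exact absurd rfl hj
    · exact ss_none j
    · exact ss_none j
  have e2 : ∀ (j : Fin M) (f : MvPolynomial (Fin m × Cl M) ℂ),
      lsub m (A6 M) (colD (Sum.inr j.castSucc) (Sum.inl none) f) =
        colD (some j) none (lsub m (A6 M) f) := by
    intro j f
    rw [e1, Finset.sum_eq_single (some j)]
    · rw [ss_cast, if_pos rfl, one_smul]
    · intro b _ hb
      rw [ss_cast, if_neg (Ne.symm hb), zero_smul]
    · intro hn
      exact absurd (Finset.mem_univ _) hn
  have e3 : ∀ f : MvPolynomial (Fin m × Cl M) ℂ,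
      lsub m (A6 M) (colD (Sum.inr (Fin.last M)) (Sum.inl none) f) =
        - ∑ j : Fin M, colD (some j) none (lsub m (A6 M) f) := by
    intro f
    rw [e1, Fintype.sum_option, ss_last, if_pos rfl, zero_smul, zero_add, ← Finset.sum_neg_distrib]
    refine Finset.sum_congr rfl fun j _ => ?_
    rw [ss_last, if_neg (by simp), neg_one_smul]
  have e4 : ∀ (L : List (Fin M)) (f : MvPolynomial (Fin m × Cl M) ℂ),
      lsub m (A6 M) (polL (Sum.inl none) (L.map fun j => Sum.inr j.castSucc) f) =
        polL none (L.map some) (lsub m (A6 M) f) := by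
    intro L f
    induction L with
    | nil => rfl
    | cons a L ih =>
      rw [List.map_cons, List.map_cons, polL_cons, polL_cons, e2, ih]
  have e5 : lsub m (A6 M) (WG m M G) =
      - polL none ((List.finRange M).map some) (∑ j : Fin M, colD (some j) none g) := by
    have hL : Lw M = ((List.finRange M).map fun j => Sum.inr j.castSucc) ++
        [Sum.inr (Fin.last M)] := by
      rw [Lw, List.finRange_succ_last, List.map_append, List.map_map]
      rfl
    rw [WG_apply, hL, polL_append, e4, polL_cons, polL_nil, e3, e0, map_neg]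
  have e6 : lsub m (ss M) (BG m M G) = lsub m (A6 M) (WG m M G) := by
    rw [BG_apply, lsub_lsub]
    apply lsub_congr
    have e7 : ∀ j : Fin (M + 1), (fun c => ∑ k, cen M j k * ss M k c) = ss M j := by
      intro j
      funext c
      simp only [cen, sub_mul]
      rw [Finset.sum_sub_distrib, ← Finset.mul_sum, sum_ss, mul_zero, sub_zero,
        Finset.sum_eq_single j]
      · rw [if_pos rfl, one_mul]
      · intro b _ hb
        rw [if_neg (Ne.symm hb), zero_mul]
      · intro hn
        exact absurd (Finset.mem_univ _) hn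
    rintro ((_ | j) | j)
    · right
      intro v hv
      obtain ⟨u, hu, hu2, _⟩ := exists_coeff_WG G v hv
      have h5 : cdeg u none = M + 1 := h2 u hu
      omega
    · left
      exact e7 j
    · left
      exact e7 j
  have hg : g = 0 := by
    apply hK m M g hM
    · intro v hv
      have hgHW : g ∈ HW m (Option (Fin M)) mu := lsub_mem_HW _ h1
      have h6 := sum_row_HW hgHW v hv
      have h7 := lsub_deg A5 (fun j => j = none) (fun c => c = none) (n := M + 1) (by
        intro j c hjc
        rcases j with _ | j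
        · by_cases hc : c = none
          · simp [hc]
          · exact absurd (if_neg hc) hjc
        · have hc : c ≠ none := by
            rintro rfl
            exact hjc (ss_none j)
          simp [hc]) (f := G) (by
        intro v hv
        rw [Finset.sum_ite_eq' Finset.univ none, if_pos (Finset.mem_univ _)]
        exact h2 v hv) v hv
      rw [Finset.sum_ite_eq' Finset.univ none, if_pos (Finset.mem_univ _)] at h7
      rw [Fintype.sum_option, h7] at h6
      exact ⟨h7, by omega⟩
    · rw [polAll_eq]
      have h5 := e5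
      rw [← e6, h0, map_zero] at h5
      have h6 := neg_eq_zero.1 h5.symm
      simp only [pol_eq]
      exact h6
  -- back to `G`
  have hs := shift_inv (m := m) (Finset.univ.map Function.Embedding.some) (tt M) G (by
    intro i
    rw [Finset.sum_map]
    exact h4 i)
  have h8 : lsub m (A7 M) g = G := by
    rw [← mat_eq] at hs
    exact (lsub_lsub A5 (A7 M) G).trans hs
  rw [← h8, hg, map_zero]

end Vale.Agent.P181.TW5
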